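import Mathlib
import Vale.Agent.P262.Sigma.Leaf
import Vale.Agent.P262.Sigma.Node
import Vale.Agent.P262.Sigma.Root

/-!
Signed prefix sums in the Euclidean unit ball: `σ(d) ≤ C √d log (2d)`, uniformly in the number of
vectors.
-/

namespace Vale.Agent.Results.P262.Sigma

open Vale.Agent.P262.Sigma

/-- There is an absolute constant `C` such that any finite sequence in the Euclidean unit ball of
`ℝ^d` has signs with all prefix sums of norm at most `C √d log (2d)`. -/
theorem result : ∃ C : ℝ, ∀ (d N : ℕ) (v : Fin N → EuclideanSpace ℝ (Fin d)), (∀ i, ‖v i‖ ≤ 1) →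
    ∃ ε : Fin N → ℝ, (∀ i, ε i = 1 ∨ ε i = -1) ∧ ∀ k : ℕ,
      ‖∑ i ∈ Finset.univ.filter (fun i : Fin N => i.val < k), ε i • v i‖ ≤
        C * Real.sqrt d * Real.log (2 * d) :=
  ⟨2 * 10 ^ 6, sigma_bound (fun _ _ hv => leaf_spec hv)
    (fun _ _ hk _ _ hseg hspec hgood _ hS => node_spec hk hseg hspec hgood hS)⟩

end Vale.Agent.Results.P262.Sigma
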