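import Mathlib
import Vale.Agent.P262.Frame

/-!
The Euclidean Steinitz conjecture of Bergström: zero-sum families in the Euclidean unit ball of
dimension `d` can be ordered with all partial sums of norm `O(√d)`.
-/

namespace Vale.Agent.Results.P262.Steinitz

open Vale.Agent.P262

/-- Orderings for families given in an orthogonal frame of their second moment. -/
lemma list_bound {B : ℕ} (hB : Big B) {d N : ℕ} (u : Fin N → Fin d → ℝ)
    (hn : ∀ k, ∑ i, u k i ^ 2 ≤ 1) (hs : ∀ i, ∑ k, u k i = 0)
    (ho : ∀ i l, i ≠ l → ∑ k, u k i * u k l = 0) :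
    ∃ l : List (Fin N), l.Nodup ∧ l.toFinset = Finset.univ ∧
      ∀ k, ∑ i, (((l.take k).map fun x => u x i).sum) ^ 2 ≤ Sys.cst B * d := by
  classical
  set I := Finset.univ.filter fun i => 0 < ∑ k, u k i * u k i with hI
  set e := I.equivFin.symm
  have hzero : ∀ i, i ∉ I → ∀ k, u k i = 0 := by
    intro i hi k
    simp only [I, Finset.mem_filter, Finset.mem_univ, true_and, not_lt] at hi
    have h1 : ∑ k, u k i * u k i = 0 := le_antisymm hi (Finset.sum_nonneg fun _ _ => mul_self_nonneg _)
    exact mul_self_eq_zero.1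
      ((Finset.sum_eq_zero_iff_of_nonneg fun _ _ => mul_self_nonneg _).1 h1 k (Finset.mem_univ _))
  have hsumI : ∀ f : Fin d → ℝ, (∀ i, i ∉ I → f i = 0) → ∑ i, f i = ∑ c, f (e c) := by
    intro f hf
    rw [Equiv.sum_comp e fun i : I => f i, Finset.sum_coe_sort]
    exact (Finset.sum_subset (Finset.subset_univ I) fun i _ hi => hf i hi).symm
  let D : Sys I.card N :=
    { v := fun k c => u k (e c)
      lam := fun c => ∑ k, u k (e c) * u k (e c)
      B := B
      hB := hB
      hlam := fun c => (Finset.mem_filter.1 (e c).2).2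
      hnorm := fun k => by
        rw [← hsumI (fun i => u k i ^ 2) fun i hi => by simp [hzero i hi k]]
        exact hn k
      horth := fun c c' => by
        by_cases h : c = c'
        · subst h; rw [if_pos rfl]
        · rw [if_neg h]
          exact ho _ _ fun h' => h (e.injective (Subtype.ext h'))
      hsum := fun c => hs _ }
  obtain ⟨l, h1, h2, h3⟩ := D.ordering
  refine ⟨l, h1, h2, fun k => ?_⟩
  have h := h3 k
  simp only [zero_add] at h
  rw [hsumI (fun i => (((l.take k).map fun x => u x i).sum) ^ 2) fun i hi => by simp [hzero i hi]]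
  refine h.trans (mul_le_mul_of_nonneg_left ?_ ?_)
  · exact_mod_cast (Finset.card_le_univ I).trans (by simp)
  · show 0 ≤ Sys.cst B
    unfold Sys.cst; positivity

/-- The Euclidean Steinitz-Bergström conjecture. -/
theorem result : ∃ C : ℝ, ∀ (d N : ℕ) (v : Fin N → EuclideanSpace ℝ (Fin d)),
    (∀ i, ‖v i‖ ≤ 1) → ∑ i, v i = 0 →
      ∃ π : Equiv.Perm (Fin N), ∀ k : ℕ,
        ‖∑ i ∈ Finset.univ.filter (fun i : Fin N => (i : ℕ) < k), v (π i)‖ ≤ C * Real.sqrt d := by
  classical
  obtain ⟨B, hB⟩ := exists_big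
  refine ⟨Real.sqrt (Sys.cst B), fun d N v hv hs => ?_⟩
  obtain ⟨e, he⟩ := exists_frame v
  obtain ⟨l, hnd, hl, hb⟩ := list_bound hB (fun k i => e.repr (v k) i)
    (fun k => by
      rw [← EuclideanSpace.real_norm_sq_eq, LinearIsometryEquiv.norm_map]
      exact pow_le_one₀ (norm_nonneg _) (hv k))
    (fun i => by
      have : e.repr (∑ k, v k) i = 0 := by rw [hs]; simp
      simpa [map_sum, WithLp.ofLp_sum, Finset.sum_apply] using this)
    he
  have hlen : l.length = N := by
    rw [← List.toFinset_card_of_nodup hnd, hl, Finset.card_univ, Fintype.card_fin]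
  set π : Fin N → Fin N := fun i => l[(i : ℕ)]'(by rw [hlen]; exact i.2) with hπ
  have hinj : Function.Injective π := by
    intro a b hab
    exact Fin.ext ((hnd.getElem_inj_iff).1 hab)
  refine ⟨Equiv.ofBijective π (Finite.injective_iff_bijective.1 hinj), fun k => ?_⟩
  have himg : (Finset.univ.filter fun i : Fin N => (i : ℕ) < k).image π = (l.take k).toFinset := by
    refine Finset.ext fun x => ?_
    simp only [Finset.mem_image, Finset.mem_filter, Finset.mem_univ, true_and, List.mem_toFinset,
      List.mem_take_iff_getElem, hπ]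
    constructor
    · rintro ⟨i, hi, rfl⟩
      exact ⟨i, lt_min hi (by rw [hlen]; exact i.2), rfl⟩
    · rintro ⟨i, hi, rfl⟩
      exact ⟨⟨i, hlen ▸ (lt_min_iff.1 hi).2⟩, (lt_min_iff.1 hi).1, rfl⟩
  have hsum : ∑ i ∈ Finset.univ.filter (fun i : Fin N => (i : ℕ) < k), v (π i)
      = ∑ x ∈ (l.take k).toFinset, v x := by
    rw [← himg, Finset.sum_image hinj.injOn]
  simp only [Equiv.ofBijective_apply]
  rw [hsum, ← e.repr.norm_map, ← Real.sqrt_sq (norm_nonneg _), ← Real.sqrt_mul' _ (Nat.cast_nonneg d),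
    EuclideanSpace.real_norm_sq_eq]
  refine Real.sqrt_le_sqrt (le_trans (le_of_eq ?_) (hb k))
  refine Finset.sum_congr rfl fun i _ => ?_
  congr 1
  rw [← List.sum_toFinset _ (hnd.sublist (List.take_sublist _ _))]
  simp [map_sum, WithLp.ofLp_sum, Finset.sum_apply]

end Vale.Agent.Results.P262.Steinitz
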